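import Vale.Agent.P313.AC.H146.Adp

/-!
Module F4: the counting trees.
-/

namespace Vale.Agent.P313.AC.H146

open Finset

theorem toNat_mul (a b c d : ℕ) :
    (((a : ℤ) - b) * ((c : ℤ) - d)).toNat = (a - b) * (c - d) + (b - a) * (d - c) ∧
    (-(((a : ℤ) - b) * ((c : ℤ) - d))).toNat = (a - b) * (d - c) + (b - a) * (c - d) := by
  rcases le_total a b with h1 | h1 <;> rcases le_total c d with h2 | h2
  all_goals
    rw [Nat.sub_eq_zero_of_le h1, Nat.sub_eq_zero_of_le h2]
    simp only [zero_mul, mul_zero, add_zero, zero_add]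
  · constructor
    · zify [h1, h2]
      rw [Int.toNat_of_nonneg (by nlinarith)]
      ring
    · rw [Int.toNat_of_nonpos (by nlinarith)]
  · constructor
    · rw [Int.toNat_of_nonpos (by nlinarith)]
    · zify [h1, h2]
      rw [Int.toNat_of_nonneg (by nlinarith)]
      ring
  · constructor
    · rw [Int.toNat_of_nonpos (by nlinarith)]
    · zify [h1, h2]
      rw [Int.toNat_of_nonneg (by nlinarith)]
      ring
  · constructor
    · zify [h1, h2]
      rw [Int.toNat_of_nonneg (by nlinarith)]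
    · rw [Int.toNat_of_nonpos (by nlinarith)]

theorem gpd_eq (sg c1 c2 d1 d2 : ℕ) : gpd sg c1 c2 d1 d2 =
    if sg = 0 then ((((c1 : ℤ) - c2) * ((d1 : ℤ) - d2)).toNat)
    else (-(((c1 : ℤ) - c2) * ((d1 : ℤ) - d2))).toNat := by
  unfold gpd
  split_ifs
  · exact (toNat_mul _ _ _ _).1.symm
  · exact (toNat_mul _ _ _ _).2.symm

/-- The formula for a digit. -/
theorem dgp_iff {D : Dat} {x : List Bool} {T : ℕ}
    {X : (Fin 14 → ℕ) → Prop} (hI : Inv D x X T) {l i u y c1 c2 : ℕ}
    (hl : l ≤ (D.p x.length).L) (hi : t0 (D.p x.length).b l ≤ i) (hi' : i ≤ (D.p x.length).tm)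
    (hu : u < (D.p x.length).N) (hy : y < (D.p x.length).N) (hT : rA D l i ≤ T)
    (h1 : c1 < (x.length + 2) ^ D.e) (h2 : c2 < (x.length + 2) ^ D.e) :
    dgp D x X l i u y c1 c2 ↔ c1 = vA D x l i u y ∧
      c2 = if i = t0 (D.p x.length).b l then 0 else vA D x l (i - 1) u y := by
  unfold dgp
  rw [hI.cA l i u y c1 hl hi hi' hu hy h1 hT]
  refine and_congr_right fun _ => ?_
  by_cases h0 : i = t0 (D.p x.length).b l
  · simp [h0]
  · rw [if_neg h0]
    simp only [h0, false_and, false_or, ne_eq, not_false_eq_true, true_and]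
    refine hI.cA l (i - 1) u y c2 hl (by omega) (by omega) hu hy h2 (le_trans ?_ hT)
    unfold rA
    gcongr
    omega

theorem dif_eq_sub {b l : ℕ} {A : ℕ → ℕ → ℕ → ℕ} {i x y : ℕ} :
    dif b l A i x y = (A i x y : ℤ) - ((if i = t0 b l then 0 else A (i - 1) x y : ℕ) : ℤ) := by
  unfold dif
  split_ifs <;> simp

theorem prd_eq_gpd {b l : ℕ} {A : ℕ → ℕ → ℕ → ℕ} {sg i j x y k : ℕ} :
    prd b l A sg i j x y k = gpd sg (A i x k) (if i = t0 b l then 0 else A (i - 1) x k)
      (A j k y) (if j = t0 b l then 0 else A (j - 1) k y) := by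
  rw [gpd_eq, ← dif_eq_sub, ← dif_eq_sub]
  rfl

theorem gm_eq {D : Dat} {n l t i j : ℕ} (ht : t ≤ (D.p n).tm) (h : okp (D.p n).b l t i j) :
    gm D n l t i j = prc (D.p n).b l t i j := by
  unfold gm
  exact min_eq_left (le_trans (prc_le h) (by omega))

theorem Q_pos {D : Dat} (hD : D.Ok) (n : ℕ) : 0 < (D.p n).Q := by
  have hG := hD.good n
  have h2 := hG.hQ2
  have h3 : 0 < 2 * (2 ^ (D.p n).b) ^ (D.p n).tm * (2 ^ (D.p n).g0 * (D.p n).N) := by
    rw [hG.hN]; positivity
  omega

theorem P_lt {D : Dat} (hD : D.Ok) (n : ℕ) : (D.p n).P < (D.p n).V := by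
  have hG := hD.good n
  have := hG.hV
  have := Q_pos hD n
  omega

theorem vA_lt_e {D : Dat} (hD : D.Ok) {x : List Bool} (hB : Bdd D x) {l t u y : ℕ}
    (hl : l ≤ (D.p x.length).L) (ht : t0 (D.p x.length).b l ≤ t) (ht' : t ≤ (D.p x.length).tm)
    (hu : u < (D.p x.length).N) (hy : y < (D.p x.length).N) :
    vA D x l t u y < (x.length + 2) ^ D.e := by
  refine lt_of_le_of_lt (hB l t u y hl ht ht' hu hy) (lt_of_lt_of_le ?_ (hD.goodF.hV x.length))
  have := (hD.good x.length).hV
  omega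

theorem gKb_le {D : Dat} (hD : D.Ok) {n m : ℕ} (hm : m ≤ (D.p n).tm + 3) :
    gKb D n m ≤ (D.p n).P := by
  refine le_trans ?_ (hD.good n).hK
  unfold gKb gB
  exact Nat.pow_le_pow_right (by positivity) (by omega)

/-- The formula for 'the bucket is not empty'. -/
theorem opBit_iff {D : Dat} (hD : D.Ok) {x : List Bool} (hB : Bdd D x) {T : ℕ}
    {X : (Fin 14 → ℕ) → Prop} (hI : Inv D x X T) {l t i j sg u y K g h s w v : ℕ}
    (hl : l + 1 ≤ (D.p x.length).L) (ht : t ≤ (D.p x.length).tm)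
    (ho : okp (D.p x.length).b l t i j) (hu : u < (D.p x.length).N) (hy : y < (D.p x.length).N)
    (hT : rT D l i j 0 ≤ T + 1) :
    opBit D x X (aT l t i j sg u y K g h s w v) ↔ vB D x l t i j sg u y K g h w := by
  have hTi : rA D l i ≤ T := by
    unfold rT at hT
    unfold rA
    have : 4 * D.κ * i ≤ 4 * D.κ * max i j := Nat.mul_le_mul_left _ (le_max_left _ _)
    omega
  have hTj : rA D l j ≤ T := by
    unfold rT at hT
    unfold rA
    have : 4 * D.κ * j ≤ 4 * D.κ * max i j := Nat.mul_le_mul_left _ (le_max_right _ _)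
    omega
  have ho' := ho
  obtain ⟨o1, o2, o3, o4, o5⟩ := ho'
  have hl' : l ≤ (D.p x.length).L := by omega
  have hi' : i ≤ (D.p x.length).tm := by omega
  have hj' : j ≤ (D.p x.length).tm := by omega
  have hC : 0 < (D.p x.length).C := Nat.succ_pos _
  have hUe : (D.p x.length).U ≤ (x.length + 2) ^ D.e := by
    have h1 := (hD.good x.length).hU
    have h2 := P_lt hD x.length
    have h3 := hD.goodF.hV x.length
    omega
  have hdig : ∀ i, t0 (D.p x.length).b l ≤ i → i ≤ (D.p x.length).tm → ∀ a < (D.p x.length).N,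
      ∀ b < (D.p x.length).N,
      (if i = t0 (D.p x.length).b l then 0 else vA D x l (i - 1) a b) <
        (x.length + 2) ^ D.e := by
    intro i h1 h2 a ha b hb
    split_ifs with h0
    · positivity
    · exact vA_lt_e hD hB hl' (by omega) (by omega) ha hb
  unfold opBit vB
  simp only [aT, Matrix.cons_val]
  rw [gm_eq ht ho]
  have key : ∀ z < (D.p x.length).U, (∃ c1 < (x.length + 2) ^ D.e, ∃ c2 < (x.length + 2) ^ D.e,
      ∃ d1 < (x.length + 2) ^ D.e, ∃ d2 < (x.length + 2) ^ D.e,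
        dgp D x X l i u (z / (D.p x.length).C) c1 c2 ∧
        dgp D x X l j (z / (D.p x.length).C) y d1 d2 ∧
        z % (D.p x.length).C < gpd sg c1 c2 d1 d2) ↔ z ∈ vZ D x l i j sg u y := by
    intro z hz
    have hk : z / (D.p x.length).C < (D.p x.length).N := by
      rw [Nat.div_lt_iff_lt_mul hC]; exact hz
    unfold vZ sV
    simp only [mem_filter, mem_range, hz, true_and]
    rw [prd_eq_gpd]
    constructor
    · rintro ⟨c1, b1, c2, b2, d1, b3, d2, b4, e1, e2, e3⟩
      rw [dgp_iff hI hl' o1 hi' hu hk hTi b1 b2] at e1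
      rw [dgp_iff hI hl' o3 hj' hk hy hTj b3 b4] at e2
      rw [← e1.1, ← e1.2, ← e2.1, ← e2.2]
      exact e3
    · intro e3
      have b1 := vA_lt_e hD hB hl' o1 hi' hu hk
      have b2 := hdig i o1 hi' u hu _ hk
      have b3 := vA_lt_e hD hB hl' o3 hj' hk hy
      have b4 := hdig j o3 hj' _ hk y hy
      exact ⟨_, b1, _, b2, _, b3, _, b4,
        (dgp_iff hI hl' o1 hi' hu hk hTi b1 b2).2 ⟨rfl, rfl⟩,
        (dgp_iff hI hl' o3 hj' hk hy hTj b3 b4).2 ⟨rfl, rfl⟩, e3⟩
  constructor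
  · rintro ⟨z, -, hz, e1, e2, e3⟩
    exact ⟨z, (key z hz).1 e3, e1, e2⟩
  · rintro ⟨z, hz, e1, e2⟩
    have hz' : z < (D.p x.length).U := by
      unfold vZ sV at hz
      exact mem_range.1 (mem_filter.1 hz).1
    exact ⟨z, lt_of_lt_of_le hz' hUe, hz', e1, e2, (key z hz').2 hz⟩

open Classical in
theorem vT_eq_sum (D : Dat) (x : List Bool) (l t i j sg u y K g h s w : ℕ) :
    vT D x l t i j sg u y K g h s w =
      ∑ w0 ∈ Ico (w * (D.p x.length).f ^ s) ((w + 1) * (D.p x.length).f ^ s),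
        if vB D x l t i j sg u y K g h w0 then 1 else 0 := by
  unfold vT
  rw [card_filter]

theorem vT_zero (D : Dat) (x : List Bool) (l t i j sg u y K g h w : ℕ) [Decidable
    (vB D x l t i j sg u y K g h w)] :
    vT D x l t i j sg u y K g h 0 w = if vB D x l t i j sg u y K g h w then 1 else 0 := by
  classical
  rw [vT_eq_sum, sum_Ico_zero]
  congr

theorem vT_succ (D : Dat) (x : List Bool) (l t i j sg u y K g h s w : ℕ) :
    vT D x l t i j sg u y K g h (s + 1) w =
      ∑ a ∈ range (D.p x.length).f,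
        vT D x l t i j sg u y K g h s (w * (D.p x.length).f + a) := by
  rw [vT_eq_sum, sum_Ico_succ]
  exact sum_congr rfl fun a _ => (vT_eq_sum _ _ _ _ _ _ _ _ _ _ _ _ _ _).symm

open Classical in
theorem vT_le (D : Dat) (x : List Bool) (l t i j sg u y K g h s w : ℕ) :
    vT D x l t i j sg u y K g h s w ≤ (D.p x.length).f ^ s := by
  unfold vT
  refine le_trans (card_filter_le _ _) ?_
  rw [Nat.card_Ico, Nat.succ_mul, Nat.add_sub_cancel_left]

theorem modF4 : ModF4 := by
  classical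
  intro D x hD hB T X hI l t i j sg u y K g h s w v hl ht ho hsg hu hy hK hg hh hw hv hT
  have hm : prc (D.p x.length).b l t i j ≤ (D.p x.length).tm + 3 :=
    le_trans (prc_le ho) (by omega)
  cases s with
  | zero =>
    have h1 : opF D x X (aT l t i j sg u y K g h 0 w v) ↔
        ((v = 1 ∧ opBit D x X (aT l t i j sg u y K g h 0 w v)) ∨
          (v = 0 ∧ ¬ opBit D x X (aT l t i j sg u y K g h 0 w v))) := by
      simp [opF, opT0, aT]
    rw [h1, opBit_iff hD hB hI hl ht ho hu hy hT, vT_zero]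
    split_ifs with h0 <;> simp [h0]
  | succ s =>
    have h1 : opF D x X (aT l t i j sg u y K g h (s + 1) w v) ↔
        adp D x v (fun a c => X (aT l t i j sg u y K g h s (w * (D.p x.length).f + a) c)) := by
      simp [opF, opT1, aT]
    rw [h1, vT_succ]
    have hT' : rT D l i j s ≤ T := by
      unfold rT at hT ⊢
      omega
    refine adp_iff hD x ?_ ?_
    · rw [← vT_succ]
      refine lt_of_le_of_lt (vT_le _ _ _ _ _ _ _ _ _ _ _ _ _ _) ?_
      refine lt_of_le_of_lt ?_ (P_lt hD x.length)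
      refine le_trans ?_ (le_trans hw (gKb_le hD hm))
      exact Nat.le_mul_of_pos_left _ (Nat.succ_pos _)
    · intro a ha c hc
      exact hI.cT l t i j sg u y K g h s (w * (D.p x.length).f + a) c hl ht ho hsg hu hy hK hg hh
        (child_le ha hw) hc hT'

end Vale.Agent.P313.AC.H146
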