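import Vale.Agent.P313.AC.Spec
import Vale.Agent.P313.AC.H81.Add

/-!
Trees of additions, members of the sets whose size is estimated, the estimate in first-order form
and the schedule.
-/

namespace Vale.Agent.P313.AC.H146

open Finset

/-! ### Trees of additions -/

/-- The sum over the leaves below the node `nd` of height `s` in the tree with fan-in `f`. -/
def tsm (f : ℕ) (c : ℕ → ℕ) (s nd : ℕ) : ℕ := ∑ i ∈ range (f ^ s), c (nd * f ^ s + i)

theorem tsm_zero (f : ℕ) (c : ℕ → ℕ) (nd : ℕ) : tsm f c 0 nd = c nd := by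
  simp [tsm]

theorem sum_mul_range (f m : ℕ) (c : ℕ → ℕ) :
    ∑ i ∈ range (f * m), c i = ∑ j ∈ range f, ∑ i ∈ range m, c (j * m + i) := by
  induction f with
  | zero => simp
  | succ f ih => rw [Nat.succ_mul, sum_range_add, ih, sum_range_succ]

theorem tsm_succ (f : ℕ) (c : ℕ → ℕ) (s nd : ℕ) :
    tsm f c (s + 1) nd = ∑ i ∈ range f, tsm f c s (nd * f + i) := by
  unfold tsm
  rw [pow_succ, mul_comm (f ^ s) f, sum_mul_range]
  refine sum_congr rfl fun j _ => sum_congr rfl fun i _ => ?_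
  congr 1
  ring

theorem tsm_root (f : ℕ) (c : ℕ → ℕ) (s : ℕ) : tsm f c s 0 = ∑ i ∈ range (f ^ s), c i := by
  simp [tsm]

/-- Sum of a node is at most the sum of the root. -/
theorem tsm_le_root (f : ℕ) (c : ℕ → ℕ) (s H nd : ℕ) (hs : s ≤ H) (hnd : nd < f ^ (H - s)) :
    tsm f c s nd ≤ ∑ i ∈ range (f ^ H), c i := by
  unfold tsm
  have h1 : ∑ i ∈ range (f ^ s), c (nd * f ^ s + i) =
      ∑ i ∈ (range (f ^ s)).map (addLeftEmbedding (nd * f ^ s)), c i := by
    rw [sum_map]; rfl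
  rw [h1]
  refine sum_le_sum_of_subset fun i hi => ?_
  simp only [mem_map, mem_range, addLeftEmbedding_apply] at hi ⊢
  obtain ⟨a, ha, rfl⟩ := hi
  have : f ^ H = f ^ (H - s) * f ^ s := by rw [← pow_add]; congr 1; omega
  rw [this]
  calc nd * f ^ s + a < nd * f ^ s + f ^ s := by omega
    _ = (nd + 1) * f ^ s := by ring
    _ ≤ f ^ (H - s) * f ^ s := Nat.mul_le_mul_right _ hnd

/-- The formula of the adder. -/
def AddF (Lq f V : ℕ) (R : ℕ → ℕ → Prop) (v : ℕ) : Prop :=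
  ∀ q < Lq, 1 ≤ q → ∃ r < q ^ f, (∑ i ∈ range f, r / q ^ i % q) % q = v % q ∧
    ∀ i < f, ∃ w < V, R i w ∧ w % q = r / q ^ i % q

/-- One round of an addition: if the children are right the sum is right. -/
theorem AddF_iff {Lq f V : ℕ} {R : ℕ → ℕ → Prop} {c : ℕ → ℕ} {v : ℕ}
    (hL : 2 * Nat.log 2 V + 3 ≤ Lq) (hv : v < V) (hs : ∑ i ∈ range f, c i < V)
    (hR : ∀ i < f, ∀ w < V, R i w ↔ c i = w) :
    AddF Lq f V R v ↔ ∑ i ∈ range f, c i = v := by
  rw [H81.modB2 V Lq f c v hL hv hs]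
  have hc : ∀ i < f, c i < V := fun i hi =>
    lt_of_le_of_lt (single_le_sum (f := c) (fun _ _ => Nat.zero_le _) (mem_range.2 hi)) hs
  unfold AddF
  refine forall_congr' fun q => ⟨fun h h1 h2 => ?_, fun h h2 h1 => ?_⟩
  · obtain ⟨r, hr, h3, h4⟩ := h h2 h1
    refine ⟨r, hr, h3, fun i hi => ?_⟩
    obtain ⟨w, hw, h5, h6⟩ := h4 i hi
    rw [← h6, ← (hR i hi w hw).1 h5]
  · obtain ⟨r, hr, h3, h4⟩ := h h1 h2
    exact ⟨r, hr, h3, fun i hi => ⟨c i, hc i hi, (hR i hi _ (hc i hi)).2 rfl, h4 i hi⟩⟩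

/-! ### Buckets -/

open Classical in
/-- The number of nonempty buckets is the sum at the root of a tree. -/
theorem nbk_eq_tsm (P K0 Kb f H : ℕ) (S : Finset ℕ) (K g h : ℕ) (hH : Kb = f ^ H) :
    nbk P K0 Kb S K g h = tsm f (fun v => if ∃ u ∈ S, sam P (wK P K0 K) g u ∧
      buc P (P / Kb + 1) h u = v then 1 else 0) H 0 := by
  rw [tsm_root, ← hH]
  unfold nbk
  rw [card_filter]

open Classical in
theorem nbk_le (P K0 Kb : ℕ) (S : Finset ℕ) (K g h : ℕ) : nbk P K0 Kb S K g h ≤ Kb := by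
  unfold nbk
  calc _ ≤ #(range Kb) := card_filter_le _ _
    _ = Kb := card_range _

/-! ### The double sum over pairs of digits -/

theorem pairs_eq_tsm (f J j0 : ℕ) (c : ℕ → ℕ → ℕ) (hJ : J = f ^ j0) (hf : 0 < f) :
    ∑ i ∈ range J, ∑ j ∈ range J, c i j = tsm f (fun nd => c (nd / J) (nd % J)) (2 * j0) 0 := by
  have hJ0 : 0 < J := by rw [hJ]; exact pow_pos hf _
  rw [tsm_root, two_mul, pow_add, ← hJ, sum_mul_range]
  refine sum_congr rfl fun i _ => sum_congr rfl fun j hj => ?_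
  have hj' := mem_range.1 hj
  rw [mul_comm i J, Nat.mul_add_div hJ0, Nat.div_eq_of_lt hj', Nat.mul_add_mod,
    Nat.mod_eq_of_lt hj', add_zero]

/-! ### The estimate in first-order form -/

open Classical in
theorem est_iff (P τ Bm K0 Kb U : ℕ) (S : Finset ℕ) (v : ℕ) :
    est P τ Bm K0 Kb U S = v ↔ v ≤ U ∧ (v ≠ 0 → Tst P τ Bm K0 Kb S v) ∧
      ∀ K, v < K → K ≤ U → ¬ Tst P τ Bm K0 Kb S K := by
  unfold est
  rw [Nat.findGreatest_eq_iff]

theorem est_le (P τ Bm K0 Kb U : ℕ) (S : Finset ℕ) : est P τ Bm K0 Kb U S ≤ U := by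
  classical
  unfold est
  exact Nat.findGreatest_le _

/-! ### The sets -/

/-- The set of size `∑ k < N, v k`. -/
def mem (N C : ℕ) (v : ℕ → ℕ) : Finset ℕ := {u ∈ range (N * C) | u % C < v (u / C)}

theorem mem_mem {N C : ℕ} {v : ℕ → ℕ} {u : ℕ} :
    u ∈ mem N C v ↔ u < N * C ∧ u % C < v (u / C) := by
  simp [mem]

theorem mem_lt {N C : ℕ} {v : ℕ → ℕ} {u : ℕ} (h : u ∈ mem N C v) : u < N * C :=
  (mem_mem.1 h).1

theorem card_mem {N C : ℕ} {v : ℕ → ℕ} (hv : ∀ k < N, v k ≤ C) :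
    #(mem N C v) = ∑ k ∈ range N, v k := by
  unfold mem
  rw [card_filter, sum_mul_range]
  refine sum_congr rfl fun k hk => ?_
  have hvk := hv k (mem_range.1 hk)
  rcases Nat.eq_zero_or_pos C with rfl | hC
  · simp at hvk; simp [hvk]
  have h1 : ∀ i ∈ range C, (if (k * C + i) % C < v ((k * C + i) / C) then 1 else 0) =
      if i < v k then 1 else 0 := by
    intro i hi
    have hi' := mem_range.1 hi
    rw [mul_comm k C, Nat.mul_add_div hC, Nat.div_eq_of_lt hi', Nat.mul_add_mod,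
      Nat.mod_eq_of_lt hi', add_zero]
  rw [sum_congr rfl h1, ← card_filter]
  have : (range C).filter (fun i => i < v k) = range (v k) := by
    ext i; simp; omega
  rw [this, card_range]

/-! ### The schedule -/

theorem sched {b l t i j : ℕ} (κ : ℕ) (h : okp b l t i j) :
    4 * κ * max i j + κ * (4 * prc b l t i j + 3) + 3 ≤ 4 * κ * t + (15 * κ + 3) := by
  obtain ⟨h1, h2, h3, h4, h5⟩ := h
  unfold prc
  have h6 : t0 b l ≤ min i j := le_min h1 h3
  have h7 : max i j + min i j = i + j := by omega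
  obtain ⟨m, hm⟩ : ∃ m, m = t + t0 b l + 3 - (i + j) := ⟨_, rfl⟩
  have h8 : m + (i + j) = t + t0 b l + 3 := by omega
  have h9 : max i j + m ≤ t + 3 := by omega
  rw [← hm]
  calc 4 * κ * max i j + κ * (4 * m + 3) + 3 = 4 * κ * (max i j + m) + (3 * κ + 3) := by ring
    _ ≤ 4 * κ * (t + 3) + (3 * κ + 3) := by gcongr
    _ = 4 * κ * t + (15 * κ + 3) := by ring

theorem okp_max {b l t i j : ℕ} (h : okp b l t i j) : max i j ≤ t := by
  obtain ⟨h1, h2, h3, h4, h5⟩ := h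
  omega

theorem prc_pos {b l t i j : ℕ} (h : okp b l t i j) : 1 ≤ prc b l t i j := by
  obtain ⟨h1, h2, h3, h4, h5⟩ := h
  unfold prc
  omega

theorem prc_le {b l t i j : ℕ} (h : okp b l t i j) : prc b l t i j ≤ t + 3 := by
  obtain ⟨h1, h2, h3, h4, h5⟩ := h
  unfold prc
  omega

end Vale.Agent.P313.AC.H146
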