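import Vale.Agent.P313.AC.FDef
import Vale.Agent.P313.AC.H146.Tree

/-!
The adder of the operator.
-/

namespace Vale.Agent.P313.AC.H146

open Finset

theorem sum_Ico_tsm (f : ℕ) (c : ℕ → ℕ) (s w : ℕ) :
    ∑ w0 ∈ Ico (w * f ^ s) ((w + 1) * f ^ s), c w0 = tsm f c s w := by
  unfold tsm
  rw [Finset.sum_Ico_eq_sum_range]
  congr 2
  rw [Nat.succ_mul, Nat.add_sub_cancel_left]

/-- A node of height `s + 1` is the sum of its children. -/
theorem sum_Ico_succ (f : ℕ) (c : ℕ → ℕ) (s w : ℕ) :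
    ∑ w0 ∈ Ico (w * f ^ (s + 1)) ((w + 1) * f ^ (s + 1)), c w0 =
      ∑ i ∈ range f, ∑ w0 ∈ Ico ((w * f + i) * f ^ s) ((w * f + i + 1) * f ^ s), c w0 := by
  rw [sum_Ico_tsm, tsm_succ]
  exact sum_congr rfl fun i _ => (sum_Ico_tsm f c s (w * f + i)).symm

/-- A node of height `0`. -/
theorem sum_Ico_zero (f : ℕ) (c : ℕ → ℕ) (w : ℕ) :
    ∑ w0 ∈ Ico (w * f ^ 0) ((w + 1) * f ^ 0), c w0 = c w := by
  rw [sum_Ico_tsm, tsm_zero]

/-- The children of a node are in the tree. -/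
theorem child_le {f s w a M : ℕ} (ha : a < f) (h : (w + 1) * f ^ (s + 1) ≤ M) :
    (w * f + a + 1) * f ^ s ≤ M := by
  refine le_trans ?_ h
  rw [pow_succ, mul_comm (f ^ s) f, ← mul_assoc]
  exact Nat.mul_le_mul_right _ (by nlinarith)

/-- The adder is right if the children are right. -/
theorem adp_iff {D : Dat} (hD : D.Ok) (x : List Bool) {v : ℕ} {Y : ℕ → ℕ → Prop} {c : ℕ → ℕ}
    (hs : ∑ i ∈ range (D.p x.length).f, c i < (D.p x.length).V)
    (hY : ∀ i < (D.p x.length).f, ∀ w < (x.length + 2) ^ D.e, (Y i w ↔ w = c i)) :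
    adp D x v Y ↔ v = ∑ i ∈ range (D.p x.length).f, c i := by
  have hG := hD.good x.length
  have hF := hD.goodF
  have hLq := hG.hLq
  have hV := hF.hV x.length
  have hq := hF.hq x.length
  have hL1 : 1 ≤ (D.p x.length).Lq := by omega
  have hf2 := hG.f2
  have hLf : (D.p x.length).Lq ≤ (x.length + 2) ^ D.e :=
    le_trans (Nat.le_self_pow (by omega) _) hq
  have hf : (D.p x.length).f ≤ (x.length + 2) ^ D.e :=
    le_trans (Nat.lt_two_pow_self.le) (le_trans (Nat.pow_le_pow_left (by omega) _) hq)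
  have hc : ∀ i < (D.p x.length).f, c i < (D.p x.length).V := fun i hi =>
    lt_of_le_of_lt (single_le_sum (f := c) (fun _ _ => Nat.zero_le _) (mem_range.2 hi)) hs
  constructor
  · rintro ⟨hv, h⟩
    symm
    rw [H81.modB2 _ _ _ c v hLq hv hs]
    intro q h1 h2
    obtain ⟨r, -, hr, h3, h4⟩ := h q (lt_of_lt_of_le h2 hLf) h1 h2
    refine ⟨r, hr, h3, fun i hi => ?_⟩
    obtain ⟨w, hw, h5, h6⟩ := h4 i (lt_of_lt_of_le hi hf) hi
    rw [← h5, (hY i hi w hw).1 h6]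
  · intro hv
    have hv' : v < (D.p x.length).V := by rw [hv]; exact hs
    refine ⟨hv', fun q _ h1 h2 => ?_⟩
    obtain ⟨r, hr, h3, h4⟩ := (H81.modB2 _ _ _ c v hLq hv' hs).1 hv.symm q h1 h2
    refine ⟨r, lt_of_lt_of_le hr (le_trans (Nat.pow_le_pow_left h2.le _) hq), hr, h3,
      fun i _ hi => ?_⟩
    have hci := lt_of_lt_of_le (hc i hi) hV
    exact ⟨c i, hci, h4 i hi, (hY i hi _ hci).2 rfl⟩

end Vale.Agent.P313.AC.H146
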