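import Vale.Agent.P313.AC.SpecE
import Vale.Agent.P313.AC.H146.Tree

/-!
One round of the operator: if the callees are right, the value is right.
-/

namespace Vale.Agent.P313.AC.H146

open Finset

/-- The positive part (`sg = 0`) or negative part of the product of two digits, from the values
at `i`, `i - 1`, `j`, `j - 1`. -/
def prn (b l sg i j v1 v2 v3 v4 : ℕ) : ℕ :=
  if sg = 0 then
    (if i = t0 b l then v1 else v1 - v2) * (if j = t0 b l then v3 else v3 - v4) +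
      (if i = t0 b l then 0 else v2 - v1) * (if j = t0 b l then 0 else v4 - v3)
  else
    (if i = t0 b l then v1 else v1 - v2) * (if j = t0 b l then 0 else v4 - v3) +
      (if i = t0 b l then 0 else v2 - v1) * (if j = t0 b l then v3 else v3 - v4)

theorem toNat_mul_aux (a b c d : ℕ) (h1 : a = 0 ∨ b = 0) (h2 : c = 0 ∨ d = 0) :
    (((a : ℤ) - b) * ((c : ℤ) - d)).toNat = a * c + b * d ∧
    (-(((a : ℤ) - b) * ((c : ℤ) - d))).toNat = a * d + b * c := by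
  rcases h1 with rfl | rfl <;> rcases h2 with rfl | rfl <;>
    simp only [Nat.cast_zero, zero_sub, sub_zero, neg_mul, mul_neg, neg_neg, zero_mul, mul_zero,
      add_zero, zero_add, ← Nat.cast_mul] <;>
    (constructor <;> first
      | exact Int.toNat_natCast _
      | exact Int.toNat_of_nonpos (by rw [neg_nonpos]; positivity))

theorem dif_eq (b l : ℕ) (A : ℕ → ℕ → ℕ → ℕ) (i x y : ℕ) :
    dif b l A i x y = (((if i = t0 b l then A i x y else A i x y - A (i - 1) x y : ℕ) : ℤ) -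
      ((if i = t0 b l then 0 else A (i - 1) x y - A i x y : ℕ) : ℤ)) := by
  unfold dif
  split_ifs
  · simp
  · omega

theorem dif_zero (b l : ℕ) (A : ℕ → ℕ → ℕ → ℕ) (i x y : ℕ) :
    (if i = t0 b l then A i x y else A i x y - A (i - 1) x y : ℕ) = 0 ∨
      (if i = t0 b l then 0 else A (i - 1) x y - A i x y : ℕ) = 0 := by
  split_ifs
  · simp
  · omega

theorem prd_eq (b l : ℕ) (A : ℕ → ℕ → ℕ → ℕ) (sg i j x y k : ℕ) :
    prd b l A sg i j x y k =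
      prn b l sg i j (A i x k) (A (i - 1) x k) (A j k y) (A (j - 1) k y) := by
  unfold prd prn
  rw [dif_eq b l A i x k, dif_eq b l A j k y]
  have h := toNat_mul_aux _ _ _ _ (dif_zero b l A i x k) (dif_zero b l A j k y)
  by_cases h0 : sg = 0
  · rw [if_pos h0, if_pos h0]; exact h.1
  · rw [if_neg h0, if_neg h0]; exact h.2

section

variable (p : Pr) (κ j0 : ℕ) (A0 : ℕ → ℕ → ℕ)

/-- The base. -/
def B : ℕ := 2 ^ p.b

/-- Largest size which is counted exactly. -/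
def K0 (m : ℕ) : ℕ := B p ^ (2 * m + 1)

/-- Number of buckets. -/
def Kb (m : ℕ) : ℕ := B p ^ (4 * m + 3)

/-- Height of the trees which count the buckets. -/
def Hb (m : ℕ) : ℕ := κ * (4 * m + 3)

/-- Estimate of `∑ k < N, v k`. -/
noncomputable def apE (m : ℕ) (v : ℕ → ℕ) : ℕ :=
  est p.P p.τ (B p ^ m) (K0 p m) (Kb p m) p.U (mem p.N p.C v)

/-- The values. -/
noncomputable def vA (l : ℕ) : ℕ → ℕ → ℕ → ℕ :=
  AA p.b p.Q (p.f ^ j0) (apE p) A0 l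

/-- The sets. -/
noncomputable def vS (l x y sg i j : ℕ) : Finset ℕ :=
  mem p.N p.C (fun k => prd p.b l (vA p j0 A0 l) sg i j x y k)

/-- The estimates. -/
noncomputable def vE (l t x y sg i j : ℕ) : ℕ :=
  apE p (prc p.b l t i j) (fun k => prd p.b l (vA p j0 A0 l) sg i j x y k)

open Classical in
/-- The counts. -/
noncomputable def vC (l t x y sg i j K g h s nd : ℕ) : ℕ :=
  tsm p.f (fun v => if ∃ u ∈ vS p j0 A0 l x y sg i j,
    sam p.P (wK p.P (K0 p (prc p.b l t i j)) K) g u ∧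
      buc p.P (p.P / Kb p (prc p.b l t i j) + 1) h u = v then 1 else 0) s nd

/-- The sums. -/
noncomputable def vT (l t x y sg s nd : ℕ) : ℕ :=
  tsm p.f (fun nd => pva p.b (apE p) l t (vA p j0 A0 l) sg x y (nd / p.f ^ j0) (nd % p.f ^ j0))
    s nd

/-! ### The formulas -/

/-- Formula for a value. -/
def VF (XS : ℕ → ℕ → ℕ → ℕ → ℕ → ℕ → ℕ → ℕ → Prop) (l t x y v : ℕ) : Prop :=
  (l = 0 ∧ v = A0 x y) ∨ (0 < l ∧ ∃ v0 < p.V, ∃ v1 < p.V, XS (l - 1) t x y 0 (2 * j0) 0 v0 ∧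
    XS (l - 1) t x y 1 (2 * j0) 0 v1 ∧ v = (v0 - v1) / p.Q)

/-- Formula for `u ∈ vS l x y sg i j`, for `u < U`. -/
def MF (XV : ℕ → ℕ → ℕ → ℕ → ℕ → Prop) (l x y sg i j u : ℕ) : Prop :=
  ∃ v1 < p.V, ∃ v2 < p.V, ∃ v3 < p.V, ∃ v4 < p.V, XV l i x (u / p.C) v1 ∧
    (i ≠ t0 p.b l → XV l (i - 1) x (u / p.C) v2) ∧ XV l j (u / p.C) y v3 ∧
    (j ≠ t0 p.b l → XV l (j - 1) (u / p.C) y v4) ∧ u % p.C < prn p.b l sg i j v1 v2 v3 v4

/-- Formula for 'the bucket is not empty'. -/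
def NE (XV : ℕ → ℕ → ℕ → ℕ → ℕ → Prop) (l t x y sg i j K g h nd : ℕ) : Prop :=
  ∃ u < p.U, sam p.P (wK p.P (K0 p (prc p.b l t i j)) K) g u ∧
    buc p.P (p.P / Kb p (prc p.b l t i j) + 1) h u = nd ∧ MF p XV l x y sg i j u

/-- Formula for a count. -/
def CF (XV : ℕ → ℕ → ℕ → ℕ → ℕ → Prop)
    (XC : ℕ → ℕ → ℕ → ℕ → ℕ → ℕ → ℕ → ℕ → ℕ → ℕ → ℕ → ℕ → ℕ → Prop)
    (l t x y sg i j K g h s nd v : ℕ) : Prop :=
  (s = 0 ∧ ((v = 1 ∧ NE p XV l t x y sg i j K g h nd) ∨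
    (v = 0 ∧ ¬ NE p XV l t x y sg i j K g h nd))) ∨
  (0 < s ∧ AddF p.Lq p.f p.V (fun c w => XC l t x y sg i j K g h (s - 1) (nd * p.f + c) w) v)

/-- Formula for the test. -/
def TF (XC : ℕ → ℕ → ℕ → ℕ → ℕ → ℕ → ℕ → ℕ → ℕ → ℕ → ℕ → ℕ → ℕ → Prop)
    (l t x y sg i j K : ℕ) : Prop :=
  Amp p.P p.τ (fun g => ∃ h < p.P ^ 2, ∃ w < p.V,
    tK p.P (K0 p (prc p.b l t i j)) (B p ^ prc p.b l t i j) K ≤ w ∧
      XC l t x y sg i j K g h (Hb κ (prc p.b l t i j)) 0 w)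

/-- Formula for an estimate. -/
def EF (XC : ℕ → ℕ → ℕ → ℕ → ℕ → ℕ → ℕ → ℕ → ℕ → ℕ → ℕ → ℕ → ℕ → Prop)
    (l t x y sg i j v : ℕ) : Prop :=
  v ≤ p.U ∧ (v ≠ 0 → TF p κ XC l t x y sg i j v) ∧
    ∀ K < p.U + 1, v < K → ¬ TF p κ XC l t x y sg i j K

/-- Formula for a sum. -/
def SF (XE : ℕ → ℕ → ℕ → ℕ → ℕ → ℕ → ℕ → ℕ → Prop)
    (XS : ℕ → ℕ → ℕ → ℕ → ℕ → ℕ → ℕ → ℕ → Prop) (l t x y sg s nd v : ℕ) : Prop :=
  (s = 0 ∧ ((okp p.b l t (nd / p.f ^ j0) (nd % p.f ^ j0) ∧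
      XE l t x y sg (nd / p.f ^ j0) (nd % p.f ^ j0) v) ∨
    (¬ okp p.b l t (nd / p.f ^ j0) (nd % p.f ^ j0) ∧ v = 0))) ∨
  (0 < s ∧ AddF p.Lq p.f p.V (fun c w => XS l t x y sg (s - 1) (nd * p.f + c) w) v)

/-! ### Bounds -/

variable {p κ j0 A0} {c n : ℕ}

theorem Kb_eq (hG : Good c κ j0 n p) (m : ℕ) : Kb p m = p.f ^ Hb κ m := by
  unfold Kb Hb B
  rw [hG.hB, ← pow_mul]

theorem C_pos : 0 < p.C := Nat.succ_pos _

theorem U_lt (hG : Good c κ j0 n p) : p.U < p.V := by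
  have := hG.hV
  have := hG.hU
  omega

theorem f_pos (hG : Good c κ j0 n p) : 0 < p.f := lt_of_lt_of_le (by norm_num) hG.f2

theorem B_pos : 0 < B p := by unfold B; positivity

theorem one_le_B (hG : Good c κ j0 n p) : 16 ≤ B p := by
  unfold B
  exact le_trans (by omega) hG.hB2

theorem Kb_le (hG : Good c κ j0 n p) {m : ℕ} (hm : m ≤ p.tm + 3) : Kb p m ≤ p.P := by
  refine le_trans ?_ hG.hK
  unfold Kb B
  exact Nat.pow_le_pow_right (by positivity) (by omega)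

theorem apE_le (m : ℕ) (v : ℕ → ℕ) : apE p m v ≤ p.U := est_le _ _ _ _ _ _ _

theorem pva_le (l t : ℕ) (A : ℕ → ℕ → ℕ → ℕ) (sg x y i j : ℕ) :
    pva p.b (apE p) l t A sg x y i j ≤ p.U := by
  unfold pva
  split_ifs
  · exact apE_le _ _
  · exact Nat.zero_le _

theorem vE_lt (hG : Good c κ j0 n p) (l t x y sg i j : ℕ) : vE p j0 A0 l t x y sg i j < p.V :=
  lt_of_le_of_lt (apE_le _ _) (U_lt hG)

theorem sum_pva_lt (hG : Good c κ j0 n p) (l t : ℕ) (A : ℕ → ℕ → ℕ → ℕ) (sg x y : ℕ) :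
    ∑ nd ∈ range (p.f ^ (2 * j0)),
      pva p.b (apE p) l t A sg x y (nd / p.f ^ j0) (nd % p.f ^ j0) < p.V := by
  calc _ ≤ ∑ nd ∈ range (p.f ^ (2 * j0)), p.U := sum_le_sum fun _ _ => pva_le _ _ _ _ _ _ _ _
    _ = p.f ^ (2 * j0) * p.U := by simp
    _ < p.V := by have := hG.hV; omega

theorem vT_lt (hG : Good c κ j0 n p) {l t x y sg s nd : ℕ} (hs : s ≤ 2 * j0)
    (hnd : nd < p.f ^ (2 * j0 - s)) : vT p j0 A0 l t x y sg s nd < p.V :=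
  lt_of_le_of_lt (tsm_le_root _ _ _ _ _ hs hnd) (sum_pva_lt hG _ _ _ _ _ _)

theorem nxA_eq (hG : Good c κ j0 n p) (l t x y : ℕ) :
    vA p j0 A0 (l + 1) t x y =
      (vT p j0 A0 l t x y 0 (2 * j0) 0 - vT p j0 A0 l t x y 1 (2 * j0) 0) / p.Q := by
  unfold vT
  rw [← pairs_eq_tsm p.f (p.f ^ j0) j0
      (fun i j => pva p.b (apE p) l t (vA p j0 A0 l) 0 x y i j) rfl (f_pos hG),
    ← pairs_eq_tsm p.f (p.f ^ j0) j0
      (fun i j => pva p.b (apE p) l t (vA p j0 A0 l) 1 x y i j) rfl (f_pos hG)]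
  rfl

theorem vA_lt (hG : Good c κ j0 n p) (hA : ∀ x < p.N, ∀ y < p.N, A0 x y < p.V) (l : ℕ)
    {t x y : ℕ} (hx : x < p.N) (hy : y < p.N) : vA p j0 A0 l t x y < p.V := by
  cases l with
  | zero => exact hA x hx y hy
  | succ l =>
    rw [nxA_eq hG]
    have h0 : vT p j0 A0 l t x y 0 (2 * j0) 0 < p.V :=
      vT_lt hG le_rfl (pow_pos (f_pos hG) _)
    exact lt_of_le_of_lt (le_trans (Nat.div_le_self _ _) (Nat.sub_le _ _)) h0

theorem vC_lt (hG : Good c κ j0 n p) {l t x y sg i j K g h s nd : ℕ}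
    (hm : prc p.b l t i j ≤ p.tm + 3)
    (hs : s ≤ Hb κ (prc p.b l t i j)) (hnd : nd < p.f ^ (Hb κ (prc p.b l t i j) - s)) :
    vC p j0 A0 l t x y sg i j K g h s nd < p.V := by
  refine lt_of_le_of_lt (tsm_le_root _ _ _ _ _ hs hnd) ?_
  calc _ ≤ ∑ i ∈ range (p.f ^ Hb κ (prc p.b l t i j)), 1 :=
        sum_le_sum fun _ _ => by split_ifs <;> simp
    _ = p.f ^ Hb κ (prc p.b l t i j) := by simp
    _ ≤ p.P := by rw [← Kb_eq hG]; exact Kb_le hG hm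
    _ < p.V := by
      have := hG.hV
      have h1 : 0 < p.Q := by
        have h2 := hG.hQ2
        have h3 : 0 < 2 * (2 ^ p.b) ^ p.tm * (2 ^ p.g0 * p.N) := by
          rw [hG.hN]; positivity
        omega
      omega

/-! ### One round -/

theorem VF_iff (hG : Good c κ j0 n p) {XS : ℕ → ℕ → ℕ → ℕ → ℕ → ℕ → ℕ → ℕ → Prop}
    {l t x y v : ℕ}
    (h : 0 < l → ∀ sg < 2, ∀ w < p.V, XS (l - 1) t x y sg (2 * j0) 0 w ↔
      vT p j0 A0 (l - 1) t x y sg (2 * j0) 0 = w) :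
    VF p j0 A0 XS l t x y v ↔ vA p j0 A0 l t x y = v := by
  unfold VF
  cases l with
  | zero =>
    simp only [true_and, lt_irrefl, false_and, or_false]
    exact eq_comm
  | succ l =>
    have h' := h (Nat.succ_pos _)
    simp only [Nat.add_sub_cancel] at h'
    rw [nxA_eq hG]
    simp only [Nat.add_sub_cancel, Nat.succ_ne_zero, false_and, false_or, Nat.succ_pos, true_and]
    constructor
    · rintro ⟨v0, h0, v1, h1, h2, h3, h4⟩
      rw [(h' 0 (by norm_num) v0 h0).1 h2, (h' 1 (by norm_num) v1 h1).1 h3, h4]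
    · intro h4
      refine ⟨_, vT_lt hG le_rfl (pow_pos (f_pos hG) _), _,
        vT_lt hG le_rfl (pow_pos (f_pos hG) _), (h' 0 (by norm_num) _ ?_).2 rfl,
        (h' 1 (by norm_num) _ ?_).2 rfl, h4.symm⟩ <;>
      exact vT_lt hG le_rfl (pow_pos (f_pos hG) _)

theorem MF_iff (hG : Good c κ j0 n p) (hA : ∀ x < p.N, ∀ y < p.N, A0 x y < p.V)
    {XV : ℕ → ℕ → ℕ → ℕ → ℕ → Prop} {l x y sg i j u : ℕ} (hx : x < p.N) (hy : y < p.N)
    (hu : u < p.U)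
    (h1 : ∀ k < p.N, ∀ w < p.V, XV l i x k w ↔ vA p j0 A0 l i x k = w)
    (h2 : i ≠ t0 p.b l → ∀ k < p.N, ∀ w < p.V, XV l (i - 1) x k w ↔ vA p j0 A0 l (i - 1) x k = w)
    (h3 : ∀ k < p.N, ∀ w < p.V, XV l j k y w ↔ vA p j0 A0 l j k y = w)
    (h4 : j ≠ t0 p.b l → ∀ k < p.N, ∀ w < p.V, XV l (j - 1) k y w ↔
      vA p j0 A0 l (j - 1) k y = w) :
    MF p XV l x y sg i j u ↔ u ∈ vS p j0 A0 l x y sg i j := by
  have hk : u / p.C < p.N := by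
    rw [Nat.div_lt_iff_lt_mul C_pos]; exact hu
  have hlt : ∀ t, ∀ x < p.N, ∀ y < p.N, vA p j0 A0 l t x y < p.V :=
    fun t x hx y hy => vA_lt hG hA l hx hy
  unfold vS
  rw [mem_mem, prd_eq]
  constructor
  · rintro ⟨v1, b1, v2, b2, v3, b3, v4, b4, e1, e2, e3, e4, e5⟩
    refine ⟨hu, ?_⟩
    rw [(h1 _ hk _ b1).1 e1, (h3 _ hk _ b3).1 e3]
    convert e5 using 1
    unfold prn
    by_cases hi : i = t0 p.b l
    · by_cases hj : j = t0 p.b l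
      · simp [hi, hj]
      · rw [(h4 hj _ hk _ b4).1 (e4 hj)]; simp [hi, hj]
    · rw [(h2 hi _ hk _ b2).1 (e2 hi)]
      by_cases hj : j = t0 p.b l
      · simp [hi, hj]
      · rw [(h4 hj _ hk _ b4).1 (e4 hj)]
  · rintro ⟨-, e5⟩
    exact ⟨_, hlt _ _ hx _ hk, _, hlt _ _ hx _ hk, _, hlt _ _ hk _ hy, _, hlt _ _ hk _ hy,
      (h1 _ hk _ (hlt _ _ hx _ hk)).2 rfl, fun hi => (h2 hi _ hk _ (hlt _ _ hx _ hk)).2 rfl,
      (h3 _ hk _ (hlt _ _ hk _ hy)).2 rfl, fun hj => (h4 hj _ hk _ (hlt _ _ hk _ hy)).2 rfl, e5⟩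

theorem NE_iff (hG : Good c κ j0 n p) (hA : ∀ x < p.N, ∀ y < p.N, A0 x y < p.V)
    {XV : ℕ → ℕ → ℕ → ℕ → ℕ → Prop} {l t x y sg i j K g h nd : ℕ} (hx : x < p.N) (hy : y < p.N)
    (h1 : ∀ k < p.N, ∀ w < p.V, XV l i x k w ↔ vA p j0 A0 l i x k = w)
    (h2 : i ≠ t0 p.b l → ∀ k < p.N, ∀ w < p.V, XV l (i - 1) x k w ↔ vA p j0 A0 l (i - 1) x k = w)
    (h3 : ∀ k < p.N, ∀ w < p.V, XV l j k y w ↔ vA p j0 A0 l j k y = w)
    (h4 : j ≠ t0 p.b l → ∀ k < p.N, ∀ w < p.V, XV l (j - 1) k y w ↔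
      vA p j0 A0 l (j - 1) k y = w) :
    NE p XV l t x y sg i j K g h nd ↔ ∃ u ∈ vS p j0 A0 l x y sg i j,
      sam p.P (wK p.P (K0 p (prc p.b l t i j)) K) g u ∧
        buc p.P (p.P / Kb p (prc p.b l t i j) + 1) h u = nd := by
  unfold NE
  constructor
  · rintro ⟨u, hu, e1, e2, e3⟩
    exact ⟨u, (MF_iff hG hA hx hy hu h1 h2 h3 h4).1 e3, e1, e2⟩
  · rintro ⟨u, hu, e1, e2⟩
    have hu' : u < p.U := mem_lt hu
    exact ⟨u, hu', e1, e2, (MF_iff hG hA hx hy hu' h1 h2 h3 h4).2 hu⟩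

theorem CF_zero (hG : Good c κ j0 n p) (hA : ∀ x < p.N, ∀ y < p.N, A0 x y < p.V)
    {XV : ℕ → ℕ → ℕ → ℕ → ℕ → Prop}
    {XC : ℕ → ℕ → ℕ → ℕ → ℕ → ℕ → ℕ → ℕ → ℕ → ℕ → ℕ → ℕ → ℕ → Prop}
    {l t x y sg i j K g h nd v : ℕ} (hx : x < p.N) (hy : y < p.N)
    (h1 : ∀ k < p.N, ∀ w < p.V, XV l i x k w ↔ vA p j0 A0 l i x k = w)
    (h2 : i ≠ t0 p.b l → ∀ k < p.N, ∀ w < p.V, XV l (i - 1) x k w ↔ vA p j0 A0 l (i - 1) x k = w)
    (h3 : ∀ k < p.N, ∀ w < p.V, XV l j k y w ↔ vA p j0 A0 l j k y = w)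
    (h4 : j ≠ t0 p.b l → ∀ k < p.N, ∀ w < p.V, XV l (j - 1) k y w ↔
      vA p j0 A0 l (j - 1) k y = w) :
    CF p XV XC l t x y sg i j K g h 0 nd v ↔ vC p j0 A0 l t x y sg i j K g h 0 nd = v := by
  classical
  unfold CF vC
  rw [tsm_zero, NE_iff hG hA hx hy h1 h2 h3 h4]
  simp only [true_and, lt_irrefl, false_and, or_false]
  split_ifs with h0
  · simp only [h0, and_true, not_true_eq_false, and_false, or_false]
    exact eq_comm
  · simp only [h0, and_false, not_false_eq_true, and_true, false_or]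
    exact eq_comm

theorem CF_succ (hG : Good c κ j0 n p)
    {XV : ℕ → ℕ → ℕ → ℕ → ℕ → Prop}
    {XC : ℕ → ℕ → ℕ → ℕ → ℕ → ℕ → ℕ → ℕ → ℕ → ℕ → ℕ → ℕ → ℕ → Prop}
    {l t x y sg i j K g h s nd v : ℕ} (hm : prc p.b l t i j ≤ p.tm + 3)
    (hs : s + 1 ≤ Hb κ (prc p.b l t i j)) (hnd : nd < p.f ^ (Hb κ (prc p.b l t i j) - (s + 1)))
    (hv : v < p.V)
    (hX : ∀ a < p.f, ∀ w < p.V, XC l t x y sg i j K g h s (nd * p.f + a) w ↔
      vC p j0 A0 l t x y sg i j K g h s (nd * p.f + a) = w) :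
    CF p XV XC l t x y sg i j K g h (s + 1) nd v ↔
      vC p j0 A0 l t x y sg i j K g h (s + 1) nd = v := by
  unfold CF
  have hlt := vC_lt (A0 := A0) (x := x) (y := y) (sg := sg) (K := K) (g := g) (h := h) hG hm hs hnd
  have e : vC p j0 A0 l t x y sg i j K g h (s + 1) nd =
      ∑ a ∈ range p.f, vC p j0 A0 l t x y sg i j K g h s (nd * p.f + a) := by
    unfold vC
    rw [tsm_succ]
  rw [e] at hlt ⊢
  simp only [Nat.succ_ne_zero, false_and, false_or, Nat.succ_pos, true_and, Nat.add_sub_cancel]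
  exact AddF_iff hG.hLq hv hlt hX

theorem TF_iff (hG : Good c κ j0 n p)
    {XC : ℕ → ℕ → ℕ → ℕ → ℕ → ℕ → ℕ → ℕ → ℕ → ℕ → ℕ → ℕ → ℕ → Prop}
    {l t x y sg i j K : ℕ} (hm : prc p.b l t i j ≤ p.tm + 3)
    (hX : ∀ g < p.P ^ 2, ∀ h < p.P ^ 2, ∀ w < p.V,
      XC l t x y sg i j K g h (Hb κ (prc p.b l t i j)) 0 w ↔
      vC p j0 A0 l t x y sg i j K g h (Hb κ (prc p.b l t i j)) 0 = w)
    (hmwk : ∀ z j, mwk p.P z j < p.P ^ 2) :
    TF p κ XC l t x y sg i j K ↔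
      Tst p.P p.τ (B p ^ prc p.b l t i j) (K0 p (prc p.b l t i j)) (Kb p (prc p.b l t i j))
        (vS p j0 A0 l x y sg i j) K := by
  unfold TF Tst Amp
  refine exists_congr fun u => and_congr_right fun _ => forall_congr' fun r =>
    imp_congr_right fun _ => exists_congr fun i' => and_congr_right fun _ =>
    exists_congr fun j' => and_congr_right fun _ => exists_congr fun h => and_congr_right fun hh =>
    ?_
  have hg := hmwk ((r + u / (p.P ^ 2 * 8 ^ p.τ) ^ i') % (p.P ^ 2 * 8 ^ p.τ)) j'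
  rw [nbk_eq_tsm _ _ _ _ _ _ _ _ _ (Kb_eq hG _)]
  have hlt := vC_lt (A0 := A0) (x := x) (y := y) (sg := sg) (K := K)
    (g := mwk p.P ((r + u / (p.P ^ 2 * 8 ^ p.τ) ^ i') % (p.P ^ 2 * 8 ^ p.τ)) j') (h := h) hG hm
    le_rfl (nd := 0) (pow_pos (f_pos hG) _)
  constructor
  · rintro ⟨w, hw, h1, h2⟩
    have h3 := (hX _ hg h hh w hw).1 h2
    rw [← h3] at h1
    exact h1
  · intro h1
    exact ⟨_, hlt, h1, (hX _ hg h hh _ hlt).2 rfl⟩

theorem EF_iff (hG : Good c κ j0 n p)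
    {XC : ℕ → ℕ → ℕ → ℕ → ℕ → ℕ → ℕ → ℕ → ℕ → ℕ → ℕ → ℕ → ℕ → Prop}
    {l t x y sg i j v : ℕ} (hm : prc p.b l t i j ≤ p.tm + 3)
    (hX : ∀ K ≤ p.U, ∀ g < p.P ^ 2, ∀ h < p.P ^ 2, ∀ w < p.V,
      XC l t x y sg i j K g h (Hb κ (prc p.b l t i j)) 0 w ↔
      vC p j0 A0 l t x y sg i j K g h (Hb κ (prc p.b l t i j)) 0 = w)
    (hmwk : ∀ z j, mwk p.P z j < p.P ^ 2) :
    EF p κ XC l t x y sg i j v ↔ vE p j0 A0 l t x y sg i j = v := by
  unfold EF vE apE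
  rw [est_iff]
  refine and_congr_right fun hv => and_congr ?_ ?_
  · refine imp_congr_right fun _ => ?_
    exact TF_iff hG hm (hX v hv) hmwk
  · refine ⟨fun h K hK hK' => ?_, fun h K hK' hK => ?_⟩
    · rw [← vS, ← TF_iff hG hm (hX K hK') hmwk]
      exact h K (by omega) hK
    · rw [TF_iff hG hm (hX K (by omega)) hmwk]
      exact h K hK (by omega)

theorem SF_zero {XE : ℕ → ℕ → ℕ → ℕ → ℕ → ℕ → ℕ → ℕ → Prop}
    {XS : ℕ → ℕ → ℕ → ℕ → ℕ → ℕ → ℕ → ℕ → Prop} {l t x y sg nd v : ℕ}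
    (hX : okp p.b l t (nd / p.f ^ j0) (nd % p.f ^ j0) →
      (XE l t x y sg (nd / p.f ^ j0) (nd % p.f ^ j0) v ↔
        vE p j0 A0 l t x y sg (nd / p.f ^ j0) (nd % p.f ^ j0) = v)) :
    SF p j0 XE XS l t x y sg 0 nd v ↔ vT p j0 A0 l t x y sg 0 nd = v := by
  unfold SF vT
  rw [tsm_zero]
  unfold pva
  simp only [true_and, lt_irrefl, false_and, or_false]
  split_ifs with h0
  · simp only [h0, true_and, not_true_eq_false, false_and, or_false]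
    exact hX h0
  · simp only [h0, false_and, not_false_eq_true, true_and, false_or]
    exact eq_comm

theorem SF_succ (hG : Good c κ j0 n p) {XE : ℕ → ℕ → ℕ → ℕ → ℕ → ℕ → ℕ → ℕ → Prop}
    {XS : ℕ → ℕ → ℕ → ℕ → ℕ → ℕ → ℕ → ℕ → Prop} {l t x y sg s nd v : ℕ}
    (hs : s + 1 ≤ 2 * j0) (hnd : nd < p.f ^ (2 * j0 - (s + 1))) (hv : v < p.V)
    (hX : ∀ a < p.f, ∀ w < p.V, XS l t x y sg s (nd * p.f + a) w ↔
      vT p j0 A0 l t x y sg s (nd * p.f + a) = w) :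
    SF p j0 XE XS l t x y sg (s + 1) nd v ↔ vT p j0 A0 l t x y sg (s + 1) nd = v := by
  unfold SF
  have hlt := vT_lt (A0 := A0) (l := l) (t := t) (x := x) (y := y) (sg := sg) hG hs hnd
  have e : vT p j0 A0 l t x y sg (s + 1) nd =
      ∑ a ∈ range p.f, vT p j0 A0 l t x y sg s (nd * p.f + a) := by
    unfold vT
    rw [tsm_succ]
  rw [e] at hlt ⊢
  simp only [Nat.succ_ne_zero, false_and, false_or, Nat.succ_pos, true_and, Nat.add_sub_cancel]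
  exact AddF_iff hG.hLq hv hlt hX

end

end Vale.Agent.P313.AC.H146
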